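import Mathlib

/-!
P082: the statement that all bounded Hochschild cohomology groups of a von Neumann algebra of
type II_1 with values in itself vanish. A bounded multilinear map is a continuous one; a normal
state is a countable sum of vector functionals.
-/

open scoped InnerProductSpace

namespace VP082.Lit

universe u

/-- The differential: `(df)(a 0, …, a n)` is `a 0 f(a 1, …)` plus the sum over `j` of
`(-1)^(j+1) f(…, a j * a (j+1), …)` plus `(-1)^(n+1) f(a 0, …, a (n-1)) * a n`. -/
noncomputable def diff {A : Type u} [Ring A] [Module ℂ A] {n : ℕ} (f : (Fin n → A) → A)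
    (a : Fin (n + 1) → A) : A :=
  a 0 * f (fun i => a i.succ) +
    ∑ j : Fin n, (-1 : ℂ) ^ ((j : ℕ) + 1) • f (Fin.contractNth j.castSucc (· * ·) a) +
    (-1 : ℂ) ^ (n + 1) • (f (fun i => a i.castSucc) * a (Fin.last n))

/-- Every bounded cocycle in degree `n + 1` is the differential of a bounded cochain in degree `n`. -/
def Vanishes (A : Type u) [NormedRing A] [NormedSpace ℂ A] (n : ℕ) : Prop :=
  ∀ f : ContinuousMultilinearMap ℂ (fun _ : Fin (n + 1) => A) A,
    (∀ a, diff f a = 0) →
      ∃ g : ContinuousMultilinearMap ℂ (fun _ : Fin n => A) A, ∀ a, f a = diff g a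

variable (H : Type u) [NormedAddCommGroup H] [InnerProductSpace ℂ H] [CompleteSpace H]

/-- The only abelian projection of `M` is zero. -/
def NoAbelianProjection (M : VonNeumannAlgebra H) : Prop :=
  ∀ p : H →L[ℂ] H, IsStarProjection p → p ∈ M →
    (∀ x ∈ M, ∀ y ∈ M, p * x * p * (p * y * p) = p * y * p * (p * x * p)) → p = 0

/-- The vectors `ξ n` give a normal tracial state of `M`, namely `x ↦ ∑ ⟪ξ n, x (ξ n)⟫`. -/
def IsTrace (M : VonNeumannAlgebra H) (ξ : ℕ → H) : Prop :=
  HasSum (fun n => ‖ξ n‖ ^ 2) 1 ∧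
    ∀ x ∈ M, ∀ y ∈ M, ∑' n, ⟪ξ n, x (y (ξ n))⟫_ℂ = ∑' n, ⟪ξ n, y (x (ξ n))⟫_ℂ

/-- The normal tracial states of `M` separate it. -/
def HasSeparatingTraces (M : VonNeumannAlgebra H) : Prop :=
  ∀ x ∈ M, (∀ ξ : ℕ → H, IsTrace H M ξ → ∀ n, x (ξ n) = 0) → x = 0

/-- `M` is of type II_1: finite with no nonzero abelian projection. -/
def IsTypeTwoOne (M : VonNeumannAlgebra H) : Prop :=
  NoAbelianProjection H M ∧ HasSeparatingTraces H M

/-- All cohomology groups of every algebra of type II_1 vanish. -/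
def Target : Prop :=
  ∀ (H : Type u) [NormedAddCommGroup H] [InnerProductSpace ℂ H] [CompleteSpace H]
    (M : VonNeumannAlgebra H), IsTypeTwoOne H M → ∀ n, Vanishes M.toStarSubalgebra n

end VP082.Lit
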