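import Vale.Agent.P082.Defs
import Vale.Agent.P082.Lit.Statement

/-!
P082: the printable statement uses the same cochains and differential as the working one.
-/

namespace VP082.Lit

universe u

variable {H : Type u} [NormedAddCommGroup H] [InnerProductSpace ℂ H] [CompleteSpace H]
  {M : VonNeumannAlgebra H}

theorem vanishes_iff (n : ℕ) :
    Vanishes (Vale.Agent.P082.Alg M) n ↔ Vale.Agent.P082.Vanishes M n := Iff.rfl

theorem noAbelian_iff : NoAbelianProjection H M ↔ Vale.Agent.P082.NoAbelianProjection M := Iff.rfl

/-- In degree zero the differential is the commutator with the element. -/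
theorem diff_zero {A : Type u} [Ring A] [Module ℂ A] (b a : A) :
    diff (fun _ : Fin 0 → A => b) (fun _ => a) = a * b - b * a := by
  simp [diff, sub_eq_add_neg]

end VP082.Lit
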