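import Vale.Agent.P082.Lit.Statement
import Vale.Agent.P085.Lit.Sanity
import Vale.Agent.P085.Bridge.Continuous

/-!
P082: the type II_1 predicate is satisfiable, and holds of every factor of type II_1.
-/

open scoped InnerProductSpace

namespace VP082.Lit.Sanity

/-- Every factor of type II_1 is of type II_1 in the sense of the statement. -/
theorem of_factor {H : Type} [NormedAddCommGroup H] [InnerProductSpace ℂ H] [CompleteSpace H]
    {M : VonNeumannAlgebra H} (h : VP085.Lit.IsTypeTwoOneFactor H M) : IsTypeTwoOne H M := by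
  refine ⟨fun p hp hpM hab => ?_, fun x hx hkill => ?_⟩
  · have h1 := VP085.Bridge.continuousPart_one h p ⟨hp, hpM, hab⟩
    simpa using h1
  · obtain ⟨ξ, h1, h2, h3⟩ := h.2.2
    exact h3 x hx (hkill ξ ⟨h1, h2⟩)

/-- Some algebra of type II_1 exists. -/
theorem exists_typeTwoOne :
    ∃ (H : Type) (_ : NormedAddCommGroup H) (_ : InnerProductSpace ℂ H) (_ : CompleteSpace H)
      (M : VonNeumannAlgebra H), IsTypeTwoOne H M := by
  obtain ⟨H, i1, i2, i3, _, M, hM⟩ := VP085.Lit.Sanity.exists_typeTwoOneFactor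
  exact ⟨H, i1, i2, i3, M, of_factor hM⟩

end VP082.Lit.Sanity
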